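import Vale.Agent.P254.Par.Main
import Vale.Agent.P254.Ell.Main
import Vale.Agent.P254.L1.F
import Vale.Agent.P254.EX.Alm
import Vale.Agent.P254.FV1.Final
import Vale.Agent.P254.Rev.Main

/-!
P254.Further (helper830): moving the free axis, and the union of the classes.
-/

open MeasureTheory Set Matrix

namespace Vale.Agent.P254.Fur

variable {n m : ℕ}

/-- the permutation of the coordinates `0` and `i0`, as an affine map -/
lemma swap_image (i0 : Fin (m + 1)) (A : Matrix (Fin (m + 1)) (Fin (m + 1)) ℝ)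
    (b : Fin (m + 1) → ℝ) (U : Set (Fin (m + 1) → ℝ)) :
    (fun x => A *ᵥ x + b) '' U =
      (fun x => (A * (Equiv.swap 0 i0).permMatrix ℝ) *ᵥ x + b) ''
        ((fun x : Fin (m + 1) → ℝ => x ∘ (Equiv.swap 0 i0)) '' U) := by
  rw [image_image]
  refine image_congr fun x _ => ?_
  rw [← mulVec_mulVec, permMatrix_mulVec]
  congr 2
  funext i
  simp

lemma swap_det (i0 : Fin (m + 1)) {A : Matrix (Fin (m + 1)) (Fin (m + 1)) ℝ} (hA : A.det ≠ 0) :
    (A * (Equiv.swap 0 i0).permMatrix ℝ).det ≠ 0 := by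
  rw [det_mul, det_permutation]
  refine mul_ne_zero hA ?_
  rcases Int.units_eq_one_or (Equiv.Perm.sign (Equiv.swap 0 i0)) with h | h <;> rw [h] <;> simp

lemma swap_body (i0 : Fin (m + 1)) {U : Set (Fin (m + 1) → ℝ)} (hU : IsConvexBody U) :
    IsConvexBody ((fun x : Fin (m + 1) → ℝ => x ∘ (Equiv.swap 0 i0)) '' U) := by
  have h1 : (fun x : Fin (m + 1) → ℝ => x ∘ (Equiv.swap 0 i0)) =
      aff ((Equiv.swap 0 i0).permMatrix ℝ) 0 := by
    funext x
    unfold aff
    rw [permMatrix_mulVec, add_zero]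
  rw [h1]
  refine isConvexBody_aff_image ?_ _ hU
  rw [det_permutation]
  rcases Int.units_eq_one_or (Equiv.Perm.sign (Equiv.swap 0 i0)) with h | h <;> rw [h] <;> simp

/-- one free coordinate -/
theorem sym1 (hn : 19 ≤ n) {K U S : Set (Fin n → ℝ)} (hK : IsConvexBody K) (hS : IsSimplex S)
    (hU : IsConvexBody U) {T : Finset (Fin n)} (hT : n ≤ T.card + 1)
    (hs : ∀ x ∈ U, ∀ y : Fin n → ℝ, (∀ i ∈ T, |y i| = |x i|) → (∀ i, i ∉ T → y i = x i) → y ∈ U)
    {A : Matrix (Fin n) (Fin n) ℝ} (hA : A.det ≠ 0) {b : Fin n → ℝ}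
    (hKU : K ⊆ (fun x => A *ᵥ x + b) '' U)
    (hvol : 299 / 300 * (volume ((fun x => A *ᵥ x + b) '' U)).toReal ≤ (volume K).toReal) :
    isoConst K < isoConst S := by
  obtain ⟨m, rfl⟩ : ∃ m, n = m + 1 := ⟨n - 1, by omega⟩
  -- the free coordinate
  obtain ⟨i0, hi0⟩ : ∃ i0 : Fin (m + 1), ∀ i, i ≠ i0 → i ∈ T := by
    by_cases h : ∃ i0, i0 ∉ T
    · obtain ⟨i0, h0⟩ := h
      refine ⟨i0, fun i hi => ?_⟩
      by_contra hiT
      have h1 : ({i, i0} : Finset (Fin (m + 1))) ⊆ Tᶜ := by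
        intro j hj
        rw [Finset.mem_insert, Finset.mem_singleton] at hj
        rw [Finset.mem_compl]
        rcases hj with rfl | rfl
        · exact hiT
        · exact h0
      have h2 := Finset.card_le_card h1
      rw [Finset.card_pair hi, Finset.card_compl, Fintype.card_fin] at h2
      omega
    · push Not at h
      exact ⟨0, fun i _ => h i⟩
  rw [swap_image i0] at hKU hvol
  refine FV1.sym1_near (by omega) hK hS (swap_body i0 hU) ?_ (swap_det i0 hA) hKU hvol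
  rintro _ ⟨x, hx, rfl⟩ y hy0 hy
  refine ⟨y ∘ (Equiv.swap 0 i0), hs x hx _ (fun i _ => ?_) (fun i hi => ?_), ?_⟩
  · simp only [Function.comp_apply]
    have key : ∀ j : Fin (m + 1), |y j| = |x (Equiv.swap 0 i0 j)| := by
      intro j
      refine Fin.cases ?_ (fun k => ?_) j
      · rw [hy0]; rfl
      · rw [hy k]; rfl
    rw [key]
    simp
  · have hii : i = i0 := by
      by_contra h
      exact hi (hi0 i h)
    subst hii
    simp only [Function.comp_apply, Equiv.swap_apply_right]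
    rw [hy0]
    simp
  · funext i
    simp

/-- sign changes and permutations of all coordinates but one -/
theorem signPerm (hn : 3 ≤ n) {K U S : Set (Fin n → ℝ)} (hK : IsConvexBody K) (hS : IsSimplex S)
    (hU : IsConvexBody U) {i0 : Fin n}
    (hs : ∀ x ∈ U, ∀ σ : Equiv.Perm (Fin n), σ i0 = i0 → ∀ y : Fin n → ℝ, y i0 = x i0 →
      (∀ i, |y i| = |x (σ i)|) → y ∈ U)
    {A : Matrix (Fin n) (Fin n) ℝ} (hA : A.det ≠ 0) {b : Fin n → ℝ}
    (hKU : K ⊆ (fun x => A *ᵥ x + b) '' U)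
    (hvol : 99 / 100 * (volume ((fun x => A *ᵥ x + b) '' U)).toReal ≤ (volume K).toReal) :
    isoConst K < isoConst S := by
  obtain ⟨m, rfl⟩ : ∃ m, n = m + 1 := ⟨n - 1, by omega⟩
  rw [swap_image i0] at hKU hvol
  refine Rev.near_lt (by omega) hK hS (swap_body i0 hU) ?_ (swap_det i0 hA) hKU hvol
  rintro _ ⟨x, hx, rfl⟩ τ y hy0 hy
  set sw := Equiv.swap (0 : Fin (m + 1)) i0 with hsw
  set e : Equiv.Perm (Fin (m + 1)) := Equiv.Perm.decomposeFin.symm (0, τ) with he
  have he0 : e 0 = 0 := by simp [he]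
  have hes : ∀ k : Fin m, e k.succ = (τ k).succ := fun k => by
    rw [he, Equiv.Perm.decomposeFin_symm_apply_succ]
    simp
  refine ⟨y ∘ sw, hs x hx (sw * e * sw) ?_ _ ?_ (fun i => ?_), ?_⟩
  · simp only [Equiv.Perm.mul_apply, hsw, Equiv.swap_apply_right, he0, Equiv.swap_apply_left]
  · simp only [Function.comp_apply, hsw, Equiv.swap_apply_right]
    rw [hy0]
    simp [hsw]
  · simp only [Function.comp_apply, Equiv.Perm.mul_apply]
    have key : ∀ j : Fin (m + 1), |y j| = |x (sw (e j))| := by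
      intro j
      refine Fin.cases ?_ (fun k => ?_) j
      · rw [he0, hy0]; rfl
      · rw [hes, hy k]; rfl
    exact key _
  · funext i
    simp [hsw]

/-- bodies of revolution -/
theorem rev (hn : 3 ≤ n) {K U S : Set (Fin n → ℝ)} (hK : IsConvexBody K) (hS : IsSimplex S)
    (hU : IsConvexBody U) {i0 : Fin n}
    (hs : ∀ x ∈ U, ∀ y : Fin n → ℝ, y i0 = x i0 → ∑ i, y i ^ 2 = ∑ i, x i ^ 2 → y ∈ U)
    {A : Matrix (Fin n) (Fin n) ℝ} (hA : A.det ≠ 0) {b : Fin n → ℝ}
    (hKU : K ⊆ (fun x => A *ᵥ x + b) '' U)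
    (hvol : 99 / 100 * (volume ((fun x => A *ᵥ x + b) '' U)).toReal ≤ (volume K).toReal) :
    isoConst K < isoConst S := by
  refine signPerm hn hK hS hU (i0 := i0) (fun x hx σ _ y h0 hy => hs x hx y h0 ?_) hA hKU hvol
  have h1 : ∀ i, y i ^ 2 = x (σ i) ^ 2 := fun i => by rw [← sq_abs, hy i, sq_abs]
  simp only [h1]
  exact Equiv.sum_comp σ fun i => x i ^ 2

end Vale.Agent.P254.Fur
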