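import Vale.Agent.P254.Defs

open MeasureTheory Set

namespace Vale.Agent.P254.Fur

/-- `U` is symmetric with respect to the hyperplanes `x_i = 0`, `i ∈ T`. -/
def SymIn {n : ℕ} (T : Finset (Fin n)) (U : Set (Fin n → ℝ)) : Prop :=
  ∀ x ∈ U, ∀ y : Fin n → ℝ, (∀ i ∈ T, |y i| = |x i|) → (∀ i, i ∉ T → y i = x i) → y ∈ U

/-- `U` is invariant under the changes of sign and the permutations of the coordinates other than
the coordinate `i0`. -/
def SignPermAbout {n : ℕ} (i0 : Fin n) (U : Set (Fin n → ℝ)) : Prop :=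
  ∀ x ∈ U, ∀ σ : Equiv.Perm (Fin n), σ i0 = i0 → ∀ y : Fin n → ℝ, y i0 = x i0 →
    (∀ i, |y i| = |x (σ i)|) → y ∈ U

/-- `U` is a body of revolution about the coordinate axis `i0`. -/
def RevAbout {n : ℕ} (i0 : Fin n) (U : Set (Fin n → ℝ)) : Prop :=
  ∀ x ∈ U, ∀ y : Fin n → ℝ, y i0 = x i0 → ∑ i, y i ^ 2 = ∑ i, x i ^ 2 → y ∈ U

/-- `K` lies in `L` and fills at least the part `t` of its volume. -/
def Fills {n : ℕ} (t : ℝ) (L K : Set (Fin n → ℝ)) : Prop :=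
  K ⊆ L ∧ t * (volume L).toReal ≤ (volume K).toReal

end Vale.Agent.P254.Fur
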