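import Vale.Agent.P254.Fur.Axis
import Vale.Agent.P254.Fur.Defs

/-!
P254.Further (helper830): the union of the classes.
-/

open MeasureTheory Set Matrix

namespace Vale.Agent.P254.Fur

theorem further {n : ℕ} (hn : 2 ≤ n) {K S : Set (Fin n → ℝ)} (hK : IsConvexBody K)
    (hS : IsSimplex S)
    (h : (∃ (Q : Matrix (Fin n) (Fin n) ℝ) (z : Fin n → ℝ), Q.PosDef ∧
        (∀ x ∈ K, (x - z) ⬝ᵥ (Q *ᵥ (x - z)) ≤ 1) ∧
        ((n : ℝ) + 1) ^ (n + 1) * ((n : ℝ) + 2) ^ n ≤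
          (volume K).toReal ^ 2 * Q.det * ((n : ℝ) ^ n * (n.factorial : ℝ) ^ 2)) ∨
      ∃ (A : Matrix (Fin n) (Fin n) ℝ) (b : Fin n → ℝ) (U : Set (Fin n → ℝ)), A.det ≠ 0 ∧
        IsConvexBody U ∧
        ((U = Icc 0 1 ∧ K ⊆ (fun x => A *ᵥ x + b) '' U ∧
            ((n : ℝ) + 1) ^ (n + 1) * ((n : ℝ) + 2) ^ n *
                (volume ((fun x => A *ᵥ x + b) '' U)).toReal ^ 2 <
              12 ^ n * (n.factorial : ℝ) ^ 2 * (volume K).toReal ^ 2) ∨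
          (∃ T : Finset (Fin n), 40 * ((n : ℝ) - T.card) * Real.log ((n : ℝ) + 2) ≤ n ∧
            SymIn T U ∧
            (Fills (min (79 / 80) ((1 - 1 / 10 ^ 24) ^ n)) ((fun x => A *ᵥ x + b) '' U) K ∨
            ∃ (z : Fin n → ℝ) (r : ℝ), 0 < r ∧ r * (1 - 1 / 10 ^ 24) ≤ 1 ∧
              (fun x => A *ᵥ x + b) '' U ⊆ K ∧
              K ⊆ (fun x => z + r • x) '' ((fun x => A *ᵥ x + b) '' U))) ∨
          (19 ≤ n ∧ (∃ T : Finset (Fin n), n ≤ T.card + 1 ∧ SymIn T U) ∧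
            Fills (299 / 300) ((fun x => A *ᵥ x + b) '' U) K) ∨
          ((∃ μ : Measure (Fin n → ℝ), IsFiniteMeasure μ ∧ Integrable (fun v => ‖v‖) μ ∧
              U = {x | ∫ v, |x ⬝ᵥ v| ∂μ ≤ 1}) ∧
            Fills (79 / 80) ((fun x => A *ᵥ x + b) '' U) K) ∨
          (3 ≤ n ∧ (∃ i0 : Fin n, SignPermAbout i0 U ∨ RevAbout i0 U) ∧
            Fills (99 / 100) ((fun x => A *ᵥ x + b) '' U) K))) :
    isoConst K < isoConst S := by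
  have hn1 : 1 ≤ n := by omega
  rcases h with ⟨Q, z, hQ, hKQ, hvol⟩ | ⟨A, b, U, hA, hU, h | h | h | h | h⟩
  · exact ell_lt hn1 hK hS hQ z hKQ hvol
  · obtain ⟨rfl, h1, h2⟩ := h
    exact Par.par_lt hn1 hK hS hA b h1 h2
  · obtain ⟨T, hT, hs, h⟩ := h
    exact (EX.near_sym hn1 hK hS ⟨A, b, U, T, hA, hU, hs, hT, h⟩).2.2 hn
  · obtain ⟨h19, ⟨T, hT, hs⟩, h1, h2⟩ := h
    exact sym1 h19 hK hS hU hT hs hA h1 h2
  · obtain ⟨⟨μ, hμ, hμi, rfl⟩, h1, h2⟩ := h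
    exact L1.l1_near hn hK hS hμi hU.2.1.isBounded hA h1 h2
  · obtain ⟨h3, ⟨i0, hs | hs⟩, h1, h2⟩ := h
    · exact signPerm h3 hK hS hU hs hA h1 h2
    · exact rev h3 hK hS hU hs hA h1 h2

end Vale.Agent.P254.Fur
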